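import Vale.Agent.Lib.H26P321.Main

namespace Vale.Agent.Results.P321.LogFreeLowerBound

open Vale.Agent.H26P321

/-- For every deletion probability `q` strictly between `0` and `1` and every length `n`,
the worst-case sample complexity of trace reconstruction is finite and is at least
`(q ^ 8 / 612) * n ^ (3 / 2)`. -/
theorem result (q : ℝ) (h0 : 0 < q) (h1 : q < 1) (n : ℕ) :
    (∃ m, CanReconstruct q n m) ∧
      q ^ 8 / 612 * (n : ℝ) ^ ((3 : ℝ) / 2) ≤ (sampleComplexity q n : ℝ) := by
  refine ⟨exists_canReconstruct h0 h1 n, ?_⟩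
  exact lower_aux h0 h1 n _ (Nat.sInf_mem (exists_canReconstruct h0 h1 n))

end Vale.Agent.Results.P321.LogFreeLowerBound
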