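import Vale.Agent.Lib.P321S.Final

namespace Vale.Agent.Results.P321.Superpolynomial

open Vale.Agent.H26P321

/-- For every deletion probability `q` strictly between `0` and `1`, the worst-case sample
complexity `T_q(n)` of trace reconstruction (finite for every `n`) eventually exceeds every
power of `n`; consequently it is not bounded by any polynomial in `n`. -/
theorem result (q : ℝ) (h0 : 0 < q) (h1 : q < 1) :
    (∀ n : ℕ, ∃ m, CanReconstruct q n m) ∧
    (∀ E : ℕ, ∃ n₀ : ℕ, ∀ n : ℕ, n₀ ≤ n → (n : ℝ) ^ E ≤ (sampleComplexity q n : ℝ)) ∧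
    ¬ ∃ (A : ℝ) (k : ℕ), ∀ n : ℕ, 1 ≤ n → (sampleComplexity q n : ℝ) ≤ A * (n : ℝ) ^ k := by
  refine ⟨fun n => exists_canReconstruct h0 h1 n, fun E => ?_, ?_⟩
  · exact Vale.Agent.P321S.superpolynomial h0 h1 E
  · rintro ⟨A, k, hA⟩
    obtain ⟨n₀, hn₀⟩ := Vale.Agent.P321S.superpolynomial h0 h1 (k + 1)
    obtain ⟨n₁, hn₁⟩ := exists_nat_gt A
    set n : ℕ := max (max n₀ n₁) 1 with hn
    have hn0 : n₀ ≤ n := (le_max_left _ _).trans (le_max_left _ _)
    have hn1 : n₁ ≤ n := (le_max_right _ _).trans (le_max_left _ _)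
    have hn2 : 1 ≤ n := le_max_right _ _
    have h2 := hn₀ n hn0
    have h3 := hA n hn2
    have h4 : A < (n : ℝ) := lt_of_lt_of_le hn₁ (by exact_mod_cast hn1)
    have h5 : (0 : ℝ) < (n : ℝ) ^ k := pow_pos (by exact_mod_cast hn2) k
    rw [pow_succ] at h2
    nlinarith

end Vale.Agent.Results.P321.Superpolynomial
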